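import Mathlib
import Vale.Agent.P113.Defs
import Vale.Agent.P113.Energy
import Vale.Agent.P113.Compile

open Set
open Vale.Agent.P113

theorem Vale.Agent.Results.P113.Halting.result (ν : ℝ) (hν : 0 < ν) (hc : ComputableReal ν) :
    ∃ (a : T3) (O : Set T3), IsOpen O ∧
      ∃ (compile : PairCode → Nat.Partrec.Code)
        (f : (M : Machine) → List (Fin (M.na + 1)) → ℝ → T3 → Fin 3 → ℝ),
        IsForceCompiler compile f ∧
        ∀ (M : Machine) (w : List (Fin (M.na + 1))),
          ∃ (u : ℝ → T3 → Fin 3 → ℝ) (p : ℝ → T3 → ℝ),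
            (∀ i, Smooth (cpt u i)) ∧ Smooth p ∧
            (∀ T, 0 < T → IsClassical ν (f M w) T u p) ∧
            (∀ T, 0 < T → ∀ v q, IsClassical ν (f M w) T v q →
              ∀ t ∈ Icc 0 T, v t = u t ∧ q t = p t) ∧
            (∃ X, IsTrajectory u a X) ∧
            ∀ X, IsTrajectory u a X → ((∃ t, 0 ≤ t ∧ X t ∈ O) ↔ M.Halts w) := by
  obtain ⟨compile, hcomp⟩ := exists_forceCompiler hc
  refine ⟨proj 0, detector, isOpen_detector, compile, _, hcomp, fun M w => ?_⟩
  have hcl : ∀ T, 0 < T → IsClassical ν (force ν (uOf (M.describe w))) T (uOf (M.describe w))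
      fun _ _ => 0 := fun T hT =>
    (isShearSeq_uField _ _ _).isClassical (smooth_uField _ _ _) ν hT
  refine ⟨uOf (M.describe w), fun _ _ => 0, smooth_uField _ _ _, smooth_zero, hcl,
    fun T hT v q hv => classical_unique hν.le hT (hcl T hT) hv,
    (isShearSeq_uField _ _ _).exists_traj 0, fun X hX => ?_⟩
  rw [halts_iff]
  exact detect M.goodM (M.wf_init w) hX
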